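import Mathlib

/-!
# P050 (DenseTargets, phase 3), module [F]: counting homomorphisms with prescribed values

`Π` a graph on a finite index type `ι`, `T` a set of indices such that every index is
`Π`-reachable from `T`.  The number of homomorphisms `z : ι → V` of `Π` into a graph `H` of maximum
degree at most `D` with prescribed values on `T` is at most `D ^ (card ι - card T)`.
-/

open Finset

namespace Vale.Agent.P050.Dense.H15

/-- The homomorphisms of `P` into `H` with prescribed values `f` on `T`. -/
noncomputable def homsOn {V ι : Type*} [Fintype V] [Fintype ι]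
    (H : SimpleGraph V) (P : SimpleGraph ι) (T : Finset ι) (f : ι → V) : Finset (ι → V) := by
  classical
  exact univ.filter (fun z : ι → V => (∀ i j, P.Adj i j → H.Adj (z i) (z j)) ∧ ∀ i ∈ T, z i = f i)

theorem mem_homsOn {V ι : Type*} [Fintype V] [Fintype ι]
    (H : SimpleGraph V) (P : SimpleGraph ι) (T : Finset ι) (f : ι → V) (z : ι → V) :
    z ∈ homsOn H P T f ↔ (∀ i j, P.Adj i j → H.Adj (z i) (z j)) ∧ ∀ i ∈ T, z i = f i := by
  classical
  simp [homsOn]

/-- If every index is reachable from `T` and `T` is not everything, some index outside `T` is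
adjacent to an index of `T`. -/
theorem exists_adj_boundary {ι : Type*} (P : SimpleGraph ι) (T : Set ι)
    (hP : ∀ i, ∃ j ∈ T, P.Reachable j i) {i : ι} (hi : i ∉ T) :
    ∃ j ∈ T, ∃ k ∉ T, P.Adj j k := by
  obtain ⟨j, hj, ⟨w⟩⟩ := hP i
  obtain ⟨d, hd, h1, h2⟩ := w.exists_boundary_dart T hj hi
  exact ⟨d.fst, h1, d.snd, h2, d.adj⟩

/-- **CNT**, general form: every index is reachable from `T`. -/
theorem card_homsOn_le {V ι : Type*} [Fintype V] [Fintype ι] [DecidableEq ι]
    (H : SimpleGraph V) [DecidableRel H.Adj] {D : ℕ} (hD : ∀ v, H.degree v ≤ D)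
    (P : SimpleGraph ι) :
    ∀ (n : ℕ) (T : Finset ι) (f : ι → V), Fintype.card ι - T.card = n →
      (∀ i, ∃ j ∈ T, P.Reachable j i) → (homsOn H P T f).card ≤ D ^ n := by
  classical
  intro n
  induction n with
  | zero =>
    intro T f hn hT
    have hTu : T = univ := by
      apply (Finset.card_eq_iff_eq_univ T).1
      have := Finset.card_le_univ T
      omega
    simp only [pow_zero]
    apply Finset.card_le_one.2
    intro a ha b hb
    rw [mem_homsOn] at ha hb
    funext i
    rw [ha.2 i (hTu ▸ mem_univ i), hb.2 i (hTu ▸ mem_univ i)]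
  | succ n ih =>
    intro T f hn hT
    have hne : ∃ i, i ∉ (T : Set ι) := by
      by_contra hcon
      push Not at hcon
      have hTu : T = univ := by
        ext i
        simpa using hcon i
      rw [hTu, Finset.card_univ] at hn
      omega
    obtain ⟨i₀, hi₀⟩ := hne
    obtain ⟨j, hj, k, hk, hjk⟩ := exists_adj_boundary P (T : Set ι)
      (fun i => by simpa using hT i) hi₀
    have hj' : j ∈ T := by simpa using hj
    have hk' : k ∉ T := by simpa using hk
    have hsub : homsOn H P T f ⊆
        (H.neighborFinset (f j)).biUnion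
          (fun v => homsOn H P (insert k T) (Function.update f k v)) := by
      intro z hz
      rw [mem_homsOn] at hz
      rw [mem_biUnion]
      refine ⟨z k, ?_, ?_⟩
      · rw [SimpleGraph.mem_neighborFinset, ← hz.2 j hj']
        exact hz.1 j k hjk
      · rw [mem_homsOn]
        refine ⟨hz.1, ?_⟩
        intro i hi
        rcases mem_insert.1 hi with rfl | hi
        · simp
        · have hik : i ≠ k := fun h => hk' (h ▸ hi)
          rw [Function.update_of_ne hik]
          exact hz.2 i hi
    calc (homsOn H P T f).card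
        ≤ ((H.neighborFinset (f j)).biUnion
          (fun v => homsOn H P (insert k T) (Function.update f k v))).card := card_le_card hsub
      _ ≤ ∑ v ∈ H.neighborFinset (f j),
          (homsOn H P (insert k T) (Function.update f k v)).card := card_biUnion_le
      _ ≤ ∑ _v ∈ H.neighborFinset (f j), D ^ n := by
          apply sum_le_sum
          intro v _
          apply ih
          · rw [card_insert_of_notMem hk']
            omega
          · intro i
            obtain ⟨l, hl, hli⟩ := hT i
            exact ⟨l, mem_insert_of_mem hl, hli⟩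
      _ = H.degree (f j) * D ^ n := by
          rw [sum_const, smul_eq_mul, SimpleGraph.card_neighborFinset_eq_degree]
      _ ≤ D * D ^ n := Nat.mul_le_mul_right _ (hD _)
      _ = D ^ (n + 1) := by ring

/-- **CNT**: `Π` connected on `Fin n`, `T` nonempty; injective homomorphisms with prescribed
values on `T`. -/
theorem cnt {V : Type*} [Fintype V] [DecidableEq V] (H : SimpleGraph V) [DecidableRel H.Adj]
    {D : ℕ} (hD : ∀ v, H.degree v ≤ D) {n : ℕ} (P : SimpleGraph (Fin n)) [DecidableRel P.Adj]
    (hP : P.Connected) (T : Finset (Fin n)) (hT : T.Nonempty) (f : Fin n → V) :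
    (univ.filter (fun z : Fin n → V => Function.Injective z ∧
      (∀ i j, P.Adj i j → H.Adj (z i) (z j)) ∧ ∀ i ∈ T, z i = f i)).card ≤ D ^ (n - T.card) := by
  have h := card_homsOn_le H hD P (Fintype.card (Fin n) - T.card) T f rfl (fun i => by
    obtain ⟨j, hj⟩ := hT
    exact ⟨j, hj, hP.preconnected j i⟩)
  rw [Fintype.card_fin] at h
  refine le_trans (card_le_card ?_) h
  intro z hz
  rw [mem_filter] at hz
  rw [mem_homsOn]
  exact hz.2.2

/-- **CNT**, rooted form with any decidable extra condition: if every index is reachable from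
`T`, the `z` with `Q z`, adjacency along `P` and prescribed values on `T` are at most
`D ^ (card ι - card T)`. -/
theorem cnt' {V ι : Type*} [Fintype V] [DecidableEq V] [Fintype ι] [DecidableEq ι]
    (H : SimpleGraph V) [DecidableRel H.Adj] {D : ℕ} (hD : ∀ v, H.degree v ≤ D)
    (P : SimpleGraph ι) (T : Finset ι) (hT : ∀ i, ∃ j ∈ T, P.Reachable j i) (f : ι → V)
    (Q : (ι → V) → Prop) [DecidablePred Q]
    (hQ : ∀ z, Q z → (∀ i j, P.Adj i j → H.Adj (z i) (z j)) ∧ ∀ i ∈ T, z i = f i) :
    (univ.filter Q).card ≤ D ^ (Fintype.card ι - T.card) := by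
  refine le_trans (card_le_card ?_) (card_homsOn_le H hD P _ T f rfl hT)
  intro z hz
  rw [mem_filter] at hz
  rw [mem_homsOn]
  exact hQ z hz.2

/-- **CNT**, unrooted form: `Π` connected on a nonempty index type: at most
`card V * D ^ (card ι - 1)` homomorphisms; more precisely the homomorphisms with `z i₀ ∈ S` are at
most `card S * D ^ (card ι - 1)`. -/
theorem cnt_root {V ι : Type*} [Fintype V] [DecidableEq V] [Fintype ι] [DecidableEq ι]
    (H : SimpleGraph V) [DecidableRel H.Adj] {D : ℕ} (hD : ∀ v, H.degree v ≤ D)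
    (P : SimpleGraph ι) (hP : P.Connected) (i₀ : ι) (S : Finset V)
    (Q : (ι → V) → Prop) [DecidablePred Q]
    (hQ : ∀ z, Q z → (∀ i j, P.Adj i j → H.Adj (z i) (z j)) ∧ z i₀ ∈ S) :
    (univ.filter Q).card ≤ S.card * D ^ (Fintype.card ι - 1) := by
  classical
  have hsub : univ.filter Q ⊆ S.biUnion (fun v => homsOn H P {i₀} (fun _ => v)) := by
    intro z hz
    rw [mem_filter] at hz
    rw [mem_biUnion]
    refine ⟨z i₀, (hQ z hz.2).2, ?_⟩
    rw [mem_homsOn]
    refine ⟨(hQ z hz.2).1, ?_⟩
    intro i hi
    rw [mem_singleton.1 hi]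
  calc (univ.filter Q).card
      ≤ (S.biUnion (fun v => homsOn H P {i₀} (fun _ => v))).card := card_le_card hsub
    _ ≤ ∑ v ∈ S, (homsOn H P {i₀} (fun _ => v)).card := card_biUnion_le
    _ ≤ ∑ _v ∈ S, D ^ (Fintype.card ι - 1) := by
        apply sum_le_sum
        intro v _
        exact card_homsOn_le H hD P _ {i₀} _ (by rw [card_singleton])
          (fun i => ⟨i₀, mem_singleton_self _, hP.preconnected i₀ i⟩)
    _ = S.card * D ^ (Fintype.card ι - 1) := by rw [sum_const, smul_eq_mul]

end Vale.Agent.P050.Dense.H15
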