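import Vale.Agent.P050.R2.H300.Defs

set_option linter.all false

/-!
Dense targets, module M3a: the `B`-side of a shortest cycle, thick sets contain a cycle,
cycle polymers are connected.
-/

open Finset

namespace Vale.Agent.P050.Dense

open Vale.Agent.P050

section

variable {V : Type*} [Fintype V] [DecidableEq V]

namespace H15

theorem HG_adj {N : V → Finset V} {γ : Finset V} {x y : V} :
    (HG N γ).Adj x y ↔ x ≠ y ∧ ((x ∈ γ ∧ y ∈ N x) ∨ (y ∈ γ ∧ x ∈ N y)) := by
  unfold HG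
  rw [SimpleGraph.fromRel_adj]

theorem HG_mono {N : V → Finset V} {γ γ' : Finset V} (h : γ ⊆ γ') : HG N γ ≤ HG N γ' := by
  intro x y hxy
  rw [HG_adj] at hxy ⊢
  refine ⟨hxy.1, ?_⟩
  rcases hxy.2 with h' | h'
  · exact Or.inl ⟨h h'.1, h'.2⟩
  · exact Or.inr ⟨h h'.1, h'.2⟩

/-- exactly one end of an edge is in `B`, and this end is in `γ` -/
theorem HG_side {N : V → Finset V} {B γ : Finset V} {D : ℕ} (hN : Bip N B D) (hγ : γ ⊆ B)
    {x y : V} (h : (HG N γ).Adj x y) :
    (x ∈ B ∧ x ∈ γ ∧ y ∈ N x ∧ y ∉ B) ∨ (x ∉ B ∧ y ∈ γ ∧ x ∈ N y ∧ y ∈ B) := by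
  rw [HG_adj] at h
  rcases h.2 with h' | h'
  · exact Or.inl ⟨hγ h'.1, h'.1, h'.2, hN.out x (hγ h'.1) y h'.2⟩
  · exact Or.inr ⟨hN.out y (hγ h'.1) x h'.2, h'.1, h'.2, hγ h'.1⟩

theorem HG_of_mem {N : V → Finset V} {B γ : Finset V} {D : ℕ} (hN : Bip N B D) (hγ : γ ⊆ B)
    {b a : V} (hb : b ∈ γ) (ha : a ∈ N b) : (HG N γ).Adj b a := by
  rw [HG_adj]
  refine ⟨?_, Or.inl ⟨hb, ha⟩⟩
  rintro rfl
  exact hN.out b (hγ hb) b ha (hγ hb)

/-- number of `B`-vertices on a walk -/
theorem walk_count {N : V → Finset V} {B γ : Finset V} {D : ℕ} (hN : Bip N B D) (hγ : γ ⊆ B)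
    {u v : V} (p : (HG N γ).Walk u v) :
    2 * (p.support.tail.countP (fun x => decide (x ∈ B))) + (if u ∈ B then 1 else 0) =
      p.length + (if v ∈ B then 1 else 0) := by
  induction p with
  | nil => simp
  | @cons u w v h q ih =>
    have hs : q.support = w :: q.support.tail := q.support_eq_cons
    rw [SimpleGraph.Walk.support_cons, List.tail_cons, hs, List.countP_cons,
      SimpleGraph.Walk.length_cons]
    rcases HG_side hN hγ h with h' | h'
    · have h1 : u ∈ B := h'.1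
      have h2 : w ∉ B := h'.2.2.2
      simp only [h1, h2, if_true, if_false, decide_false, decide_true] at ih ⊢
      simp at ih ⊢
      omega
    · have h1 : u ∉ B := h'.1
      have h2 : w ∈ B := h'.2.2.2
      simp only [h1, h2, if_true, if_false, decide_false, decide_true] at ih ⊢
      simp at ih ⊢
      omega

theorem countP_eq_card {l : List V} (hl : l.Nodup) (B : Finset V) :
    l.countP (fun x => decide (x ∈ B)) = (l.toFinset.filter (fun x => x ∈ B)).card := by
  rw [List.countP_eq_length_filter, ← List.toFinset_card_of_nodup (hl.filter _)]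
  congr 1
  ext x
  simp

/-- the `B`-side of a closed walk -/
def sideB (B : Finset V) {G : SimpleGraph V} {u v : V} (c : G.Walk u v) : Finset V :=
  c.support.toFinset.filter (fun x => x ∈ B)

theorem two_card_sideB {N : V → Finset V} {B γ : Finset V} {D : ℕ} (hN : Bip N B D) (hγ : γ ⊆ B)
    {v : V} (c : (HG N γ).Walk v v) (hc : c.IsCycle) :
    2 * (sideB B c).card = c.length := by
  have h1 := walk_count hN hγ c
  have h2 : c.support.tail.Nodup := hc.support_nodup
  rw [countP_eq_card h2 B] at h1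
  have h3 : c.support.toFinset = c.support.tail.toFinset := by
    ext x
    rw [List.mem_toFinset, List.mem_toFinset]
    constructor
    · intro hx
      rw [SimpleGraph.Walk.support_eq_cons, List.mem_cons] at hx
      rcases hx with rfl | hx
      · exact SimpleGraph.Walk.end_mem_tail_support hc.not_nil
      · exact hx
    · intro hx
      exact List.mem_of_mem_tail hx
  unfold sideB
  rw [h3]
  omega

theorem mem_of_mem_support {N : V → Finset V} {B γ : Finset V} {D : ℕ} (hN : Bip N B D)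
    (hγ : γ ⊆ B) {v : V} (c : (HG N γ).Walk v v) (hc : c.IsCycle) {x : V} (hx : x ∈ c.support)
    (hxB : x ∈ B) : x ∈ γ := by
  rw [SimpleGraph.Walk.mem_support_iff_exists_mem_edges_of_not_nil hc.not_nil] at hx
  obtain ⟨e, he, hxe⟩ := hx
  have h1 : e ∈ (HG N γ).edgeSet := c.edges_subset_edgeSet he
  obtain ⟨y, rfl⟩ := hxe
  rw [SimpleGraph.mem_edgeSet] at h1
  rcases HG_side hN hγ h1 with h | h
  · exact h.2.1
  · exact absurd hxB h.1

/-- a cycle of `HG N γ` is a cycle of `HG N C`, `C` its `B`-side -/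
theorem cycle_transfer {N : V → Finset V} {B γ : Finset V} {D : ℕ} (hN : Bip N B D)
    (hγ : γ ⊆ B) {v : V} (c : (HG N γ).Walk v v) (hc : c.IsCycle) :
    ∃ c' : (HG N (sideB B c)).Walk v v, c'.IsCycle ∧ c'.length = c.length := by
  have h : ∀ e, e ∈ c.edges → e ∈ (HG N (sideB B c)).edgeSet := by
    intro e he
    have h1 : e ∈ (HG N γ).edgeSet := c.edges_subset_edgeSet he
    induction e with
    | _ x y =>
      rw [SimpleGraph.mem_edgeSet] at h1 ⊢
      have hx : x ∈ c.support := c.fst_mem_support_of_mem_edges he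
      have hy : y ∈ c.support := c.snd_mem_support_of_mem_edges he
      rw [HG_adj]
      refine ⟨h1.ne, ?_⟩
      rcases HG_side hN hγ h1 with h | h
      · left
        refine ⟨?_, h.2.2.1⟩
        rw [sideB, Finset.mem_filter, List.mem_toFinset]
        exact ⟨hx, h.1⟩
      · right
        refine ⟨?_, h.2.2.1⟩
        rw [sideB, Finset.mem_filter, List.mem_toFinset]
        exact ⟨hy, h.2.2.2⟩
  exact ⟨c.transfer _ h, hc.transfer h, SimpleGraph.Walk.length_transfer _ _⟩

theorem gc_mono {N : V → Finset V} {γ γ' : Finset V} {k : ℕ} (hg : GC N γ' k) (h : γ ⊆ γ') :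
    GC N γ k := by
  intro v c hc
  have h1 := hg v (c.mapLe (HG_mono h)) (hc.mapLe _)
  rwa [SimpleGraph.Walk.length_map] at h1

end H15

open H15

/-- M3a: the `B`-side of a shortest cycle -/
theorem exists_cycP {N : V → Finset V} {B γ : Finset V} {D : ℕ} (hN : Bip N B D) (hγ : γ ⊆ B)
    (hc : ¬ (HG N γ).IsAcyclic) :
    ∃ (k : ℕ) (C : Finset V), C ⊆ γ ∧ CycP N C k ∧ GC N γ k := by
  classical
  have hex : ∃ n : ℕ, ∃ (v : V) (c : (HG N γ).Walk v v), c.IsCycle ∧ c.length = n := by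
    by_contra h
    apply hc
    intro v c hcc
    exact h ⟨c.length, v, c, hcc, rfl⟩
  obtain ⟨v, c, hcc, hl⟩ := Nat.find_spec hex
  have hmin : ∀ (w : V) (d : (HG N γ).Walk w w), d.IsCycle → c.length ≤ d.length := by
    intro w d hd
    rw [hl]
    exact Nat.find_min' hex ⟨w, d, hd, rfl⟩
  have hcard := two_card_sideB hN hγ c hcc
  have h3 : 3 ≤ c.length := hcc.three_le_length
  have hsub : sideB B c ⊆ γ := by
    intro x hx
    rw [sideB, Finset.mem_filter, List.mem_toFinset] at hx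
    exact mem_of_mem_support hN hγ c hcc hx.1 hx.2
  have hg : GC N γ (sideB B c).card := by
    intro w d hd
    rw [hcard]
    exact hmin w d hd
  refine ⟨(sideB B c).card, sideB B c, hsub, ⟨by omega, rfl, gc_mono hg hsub, ?_⟩, hg⟩
  obtain ⟨c', hc', hl'⟩ := cycle_transfer hN hγ c hcc
  exact ⟨v, c', hc', by rw [hl', hcard]⟩

/-- a nonempty finite graph without leaves has a cycle -/
theorem H15.not_acyclic_of_deg {W : Type*} [Fintype W] {G : SimpleGraph W} {x₀ y₀ : W}
    (h0 : G.Adj x₀ y₀) (h : ∀ x y, G.Adj x y → ∃ y', y' ≠ y ∧ G.Adj x y') :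
    ¬ G.IsAcyclic := by
  classical
  intro hac
  -- a longest path
  let S : Set ℕ := {n | ∃ (u v : W) (p : G.Walk u v), p.IsPath ∧ p.length = n}
  have hb : ∀ n ∈ S, n ≤ Fintype.card W := by
    rintro n ⟨u, v, p, hp, rfl⟩
    exact le_of_lt hp.length_lt
  have hne : (1 : ℕ) ∈ S := by
    refine ⟨x₀, y₀, SimpleGraph.Walk.cons h0 SimpleGraph.Walk.nil, ?_, rfl⟩
    simp [h0.ne]
  have hbdd : BddAbove S := ⟨_, fun n hn => hb n hn⟩
  have hmem : sSup S ∈ S := Nat.sSup_mem ⟨1, hne⟩ hbdd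
  obtain ⟨u, v, p, hp, hl⟩ := hmem
  have h1 : 1 ≤ p.length := by
    rw [hl]
    exact le_csSup hbdd hne
  have hnn : ¬ p.Nil := by
    intro hn
    rw [SimpleGraph.Walk.nil_iff_length_eq] at hn
    omega
  have ha : G.Adj u p.snd := p.adj_snd hnn
  obtain ⟨w, hw, haw⟩ := h u p.snd ha
  by_cases hs : w ∈ p.support
  · exact hw (hac.eq_snd_of_adj_start hp haw hs)
  · have h2 : p.length + 1 ∈ S :=
      ⟨w, v, SimpleGraph.Walk.cons haw.symm p, hp.cons hs, rfl⟩
    have h3 := le_csSup hbdd h2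
    omega

theorem Thick.not_acyclic {N : V → Finset V} {B γ : Finset V} {D : ℕ} (hN : Bip N B D)
    (hγ : γ ⊆ B) (hne : γ.Nonempty) (ht : Thick N γ) : ¬ (HG N γ).IsAcyclic := by
  classical
  let G : SimpleGraph V := SimpleGraph.fromRel (fun b a => b ∈ γ ∧ a ∈ sh N γ b)
  have hsh : ∀ b a, a ∈ sh N γ b ↔ a ∈ N b ∧ ∃ b' ∈ γ, b' ≠ b ∧ a ∈ N b' := by
    intro b a
    unfold sh
    rw [Finset.mem_filter]
  have hGH : G ≤ HG N γ := by
    intro x y hxy
    rw [SimpleGraph.fromRel_adj] at hxy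
    rw [HG_adj]
    refine ⟨hxy.1, ?_⟩
    rcases hxy.2 with h | h
    · exact Or.inl ⟨h.1, ((hsh _ _).1 h.2).1⟩
    · exact Or.inr ⟨h.1, ((hsh _ _).1 h.2).1⟩
  have hadj : ∀ b a, b ∈ γ → a ∈ sh N γ b → G.Adj b a := by
    intro b a hb ha
    rw [SimpleGraph.fromRel_adj]
    refine ⟨?_, Or.inl ⟨hb, ha⟩⟩
    rintro rfl
    exact hN.out b (hγ hb) b ((hsh _ _).1 ha).1 (hγ hb)
  have key : ¬ G.IsAcyclic := by
    obtain ⟨b₀, hb₀⟩ := hne
    obtain ⟨a₀, ha₀⟩ : (sh N γ b₀).Nonempty := by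
      rw [← Finset.card_pos]
      have := ht b₀ hb₀
      omega
    refine not_acyclic_of_deg (hadj b₀ a₀ hb₀ ha₀) ?_
    intro x y hxy
    rw [SimpleGraph.fromRel_adj] at hxy
    rcases hxy.2 with h | h
    · obtain ⟨y', hy', hne'⟩ := Finset.exists_mem_ne (show 1 < (sh N γ x).card from ht x h.1) y
      exact ⟨y', hne', hadj x y' h.1 hy'⟩
    · -- `y ∈ γ`, `x ∈ sh N γ y`
      obtain ⟨hx1, b', hb', hne', hx2⟩ := (hsh _ _).1 h.2
      refine ⟨b', hne', ?_⟩
      refine (hadj b' x hb' ?_).symm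
      rw [hsh]
      exact ⟨hx2, y, h.1, hne'.symm, hx1⟩
  intro hac
  exact key (hac.anti hGH)

/-- M3b': cycle polymers are connected -/
theorem CycP.cn {N : V → Finset V} {B γ : Finset V} {D : ℕ} (hN : Bip N B D) (hγ : γ ⊆ B) {k : ℕ}
    (h : CycP N γ k) : Cn (BG N) γ := by
  classical
  obtain ⟨hk, hcard, hg, v, c, hc, hl⟩ := h
  have h2 := two_card_sideB hN hγ c hc
  have hsub : sideB B c ⊆ γ := by
    intro x hx
    rw [sideB, Finset.mem_filter, List.mem_toFinset] at hx
    exact mem_of_mem_support hN hγ c hc hx.1 hx.2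
  have heq : sideB B c = γ := Finset.eq_of_subset_of_card_le hsub (by omega)
  have hsup : ∀ x ∈ γ, x ∈ c.support := by
    intro x hx
    rw [← heq, sideB, Finset.mem_filter, List.mem_toFinset] at hx
    exact hx.1
  refine ⟨by rw [← Finset.card_pos]; omega, ?_⟩
  intro u hu w hw
  have hr : (HG N γ).Reachable u w := by
    have h1 : (HG N γ).Reachable v u := ⟨c.takeUntil u (hsup u hu)⟩
    have h2 : (HG N γ).Reachable v w := ⟨c.takeUntil w (hsup w hw)⟩
    exact h1.symm.trans h2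
  -- the two kinds of vertices reachable from `u`
  have key : ∀ x y, (HG N γ).Walk x y → x = u →
      (y ∈ γ ∧ (Gr (BG N) γ).Reachable u y) ∨
        (y ∉ B ∧ ∃ b ∈ γ, y ∈ N b ∧ (Gr (BG N) γ).Reachable u b) := by
    intro x y p
    induction p using SimpleGraph.Walk.concatRec with
    | Hnil =>
      rintro rfl
      exact Or.inl ⟨hu, SimpleGraph.Reachable.refl _⟩
    | @Hconcat x y z p hyz ih =>
      intro hx
      rcases ih hx with ⟨hy, hr⟩ | ⟨hyB, b, hb, hyb, hr⟩
      · rcases HG_side hN hγ hyz with h' | h'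
        · exact Or.inr ⟨h'.2.2.2, y, hy, h'.2.2.1, hr⟩
        · exact absurd (hγ hy) h'.1
      · rcases HG_side hN hγ hyz with h' | h'
        · exact absurd h'.1 hyB
        · left
          refine ⟨h'.2.1, ?_⟩
          by_cases hbz : b = z
          · exact hbz ▸ hr
          · refine hr.trans (SimpleGraph.Adj.reachable ?_)
            refine ⟨?_, hb, h'.2.1⟩
            unfold BG
            rw [SimpleGraph.fromRel_adj]
            refine ⟨hbz, Or.inl ⟨y, ?_⟩⟩
            rw [Finset.mem_inter]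
            exact ⟨hyb, h'.2.2.1⟩
  obtain ⟨p⟩ := hr
  rcases key u w p rfl with ⟨_, h'⟩ | ⟨h', _⟩
  · exact h'
  · exact absurd (hγ hw) h'

end

end Vale.Agent.P050.Dense
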