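import Vale.Agent.P050.R2.H300.Basic

set_option linter.all false

/-!
# P050 (DenseTargets, phase 3): one step of the non-branching exploration

`gb U E z = ∏ e ∈ E, (1 + U (e.map z))` is the Gibbs factor of the environment `E`.  At an active
vertex `v` which lies on exactly one factor edge `w v`, the environment edges from `v` to the
closing vertices `C` are expanded as subsets, the ones to the new vertices `N` in the single
ordered form `∏ (1 + u_a) = 1 + Σ_a u_a ∏_{o a' < o a} (1 + u_{a'})`; the term `1` integrates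
to `0`.
-/

open MeasureTheory Finset

namespace Vale.Agent.P050.Dense.H15

open Vale.Agent.P050 Vale.Agent.P050.Dense

section

variable {V : Type*} [Fintype V] [DecidableEq V] {Ω : Type*} [MeasurableSpace Ω]

/-- the Gibbs factor of the environment `E` -/
noncomputable def gb (U : Sym2 Ω → ℝ) (E : Finset (Sym2 V)) (z : V → Ω) : ℝ :=
  ∏ e ∈ E, (1 + U (e.map z))

/-- the edges from `v` to the vertices of `A` -/
def st (v : V) (A : Finset V) : Finset (Sym2 V) := A.image (fun a => s(v, a))

theorem mem_st {v : V} {A : Finset V} {e : Sym2 V} : e ∈ st v A ↔ ∃ a ∈ A, s(v, a) = e := by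
  simp [st]

theorem st_inj (v : V) : Function.Injective (fun a : V => s(v, a)) := by
  intro a b h
  have h' : a = b ∨ v = b ∧ a = v := by simpa using h
  rcases h' with h | ⟨h1, h2⟩
  · exact h
  · rw [h2, h1]

theorem prod_st {M : Type*} [CommMonoid M] (v : V) (A : Finset V) (f : Sym2 V → M) :
    ∏ e ∈ st v A, f e = ∏ a ∈ A, f s(v, a) := by
  unfold st
  rw [Finset.prod_image]
  intro a _ b _ h
  exact st_inj v h

theorem st_union (v : V) (A B : Finset V) : st v (A ∪ B) = st v A ∪ st v B := by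
  unfold st
  exact Finset.image_union _ _

theorem st_subset {v : V} {A : Finset V} {E : Finset (Sym2 V)} (h : ∀ a ∈ A, s(v, a) ∈ E) :
    st v A ⊆ E := by
  intro e he
  obtain ⟨a, ha, rfl⟩ := mem_st.1 he
  exact h a ha

variable {U : Sym2 Ω → ℝ} {κ η : ℝ}

theorem bm_one_add (hU : Good U 1) (e : Sym2 V) : BM (fun z : V → Ω => 1 + U (e.map z)) :=
  (BM.const 1).add (hU.bm_edge e)

theorem bm_gb (hU : Good U 1) (E : Finset (Sym2 V)) : BM (gb U E : (V → Ω) → ℝ) :=
  BM.finprod E fun e _ => bm_one_add hU e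

theorem gb_ind (E : Finset (Sym2 V)) {v : V} (hv : ∀ e ∈ E, v ∉ e) :
    Ind v (gb U E : (V → Ω) → ℝ) := by
  intro x y
  unfold gb
  refine Finset.prod_congr rfl fun e he => ?_
  rw [map_update_of_notMem (hv e he)]

theorem gb_nonneg {μ : Measure Ω} (hU : Ker μ U κ η) (E : Finset (Sym2 V)) (z : V → Ω) :
    0 ≤ gb U E z :=
  Finset.prod_nonneg fun e _ => hU.one_add_nonneg _

theorem gb_sdiff (v : V) {A : Finset V} {E : Finset (Sym2 V)} (h : ∀ a ∈ A, s(v, a) ∈ E)
    (z : V → Ω) : gb U E z = gb U (E \ st v A) z * ∏ a ∈ A, (1 + U s(z v, z a)) := by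
  unfold gb
  rw [← Finset.prod_sdiff (st_subset h), prod_st v A (fun e => 1 + U (e.map z))]
  rfl

/-- `∏ (1 + u_a) = Σ_S ∏_{a ∈ S} u_a` -/
theorem prod_one_add_powerset (C : Finset V) (u : V → ℝ) :
    ∏ a ∈ C, (1 + u a) = ∑ S ∈ C.powerset, ∏ a ∈ S, u a := by
  have := Finset.prod_add u (fun _ => (1:ℝ)) C
  simp only [Finset.prod_const_one, mul_one] at this
  rw [← this]
  exact Finset.prod_congr rfl fun a _ => add_comm _ _

/-- `∏ (1 + u_a) = 1 + Σ_a u_a ∏_{o a' < o a} (1 + u_{a'})` -/
theorem prod_one_add_ord (o : V → ℕ) (ho : Function.Injective o) (N : Finset V) (u : V → ℝ) :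
    ∏ a ∈ N, (1 + u a) =
      1 + ∑ a ∈ N, u a * ∏ a' ∈ N.filter (fun a' => o a' < o a), (1 + u a') := by
  have := prod_add_ord o ho N (fun _ => (1:ℝ)) u
  simpa using this

variable (μ : Measure Ω) [IsProbabilityMeasure μ]

/-- an edge whose end `v` is on no other factor integrates to `0` -/
theorem int_leaf (hU : Ker μ U κ η) {v w : V} (hvw : v ≠ w) {R : (V → Ω) → ℝ} (hR : BM R)
    (hRv : Ind v R) : ∫ z, U s(z w, z v) * R z ∂(piM V μ) = 0 := by
  have h1 : ∀ z : V → Ω, U s(z w, z v) = U s(z v, z w) := fun z => by rw [Sym2.eq_swap]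
  simp only [h1]
  rw [leaf_elim μ hU.good hvw hR hRv]
  have h0 : ∀ s, degf μ U s = 0 := hU.zero
  simp only [h0, zero_mul, integral_zero]

/-- **one step of the exploration** at the active vertex `v`, whose only factor edge is `w v` -/
theorem step (hU : Ker μ U κ η) (o : V → ℕ) (ho : Function.Injective o)
    {E : Finset (Sym2 V)} {v w : V} (hvw : v ≠ w) {C N : Finset V}
    (hC : ∀ a ∈ C, s(v, a) ∈ E) (hN : ∀ a ∈ N, s(v, a) ∈ E) (hCN : Disjoint C N)
    (hvN : v ∉ N) (hall : ∀ e ∈ E, v ∈ e → e ∈ st v (C ∪ N))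
    {R : (V → Ω) → ℝ} (hR : BM R) (hRv : Ind v R) :
    ∫ z, U s(z w, z v) * R z * gb U E z ∂(piM V μ) =
      ∑ S ∈ C.powerset.erase ∅, ∫ z, U s(z w, z v) * R z * (∏ a ∈ S, U s(z v, z a)) *
          (∏ a ∈ N, (1 + U s(z v, z a))) * gb U (E \ st v (C ∪ N)) z ∂(piM V μ) +
      ∑ a ∈ N, ∫ z, U s(z w, z v) * R z * U s(z v, z a) *
          gb U (E \ st v (C ∪ N.filter (fun a' => o a ≤ o a'))) z ∂(piM V μ) := by
  classical
  have hCN' : ∀ a ∈ C ∪ N, s(v, a) ∈ E := by
    intro a ha
    rcases Finset.mem_union.1 ha with h | h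
    · exact hC a h
    · exact hN a h
  set G : (V → Ω) → ℝ := gb U (E \ st v (C ∪ N)) with hG
  have hGb : BM G := bm_gb hU.good _
  have hGi : Ind v G := by
    apply gb_ind
    intro e he hve
    rw [Finset.mem_sdiff] at he
    exact he.2 (hall e he.1 hve)
  -- the factor at `v`
  have hb1 : ∀ a : V, BM (fun z : V → Ω => U s(z v, z a)) := fun a => by
    have := hU.good.bm_edge (V := V) s(v, a)
    simpa using this
  have hb0 : BM (fun z : V → Ω => U s(z w, z v)) := by
    have := hU.good.bm_edge (V := V) s(w, v)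
    simpa using this
  have hprod : ∀ z : V → Ω, gb U E z =
      (∑ S ∈ C.powerset, ∏ a ∈ S, U s(z v, z a)) * (∏ a ∈ N, (1 + U s(z v, z a))) * G z := by
    intro z
    rw [gb_sdiff v hCN' z, Finset.prod_union hCN,
      prod_one_add_powerset C (fun a => U s(z v, z a))]
    ring
  have hsplit : ∀ z : V → Ω, U s(z w, z v) * R z * gb U E z =
      ∑ S ∈ C.powerset.erase ∅, U s(z w, z v) * R z * (∏ a ∈ S, U s(z v, z a)) *
          (∏ a ∈ N, (1 + U s(z v, z a))) * G z +
      (∑ a ∈ N, U s(z w, z v) * R z * U s(z v, z a) *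
          gb U (E \ st v (C ∪ N.filter (fun a' => o a ≤ o a'))) z + U s(z w, z v) * (R z * G z)) := by
    intro z
    rw [hprod z]
    have h1 : ∑ S ∈ C.powerset, ∏ a ∈ S, U s(z v, z a) =
        ∑ S ∈ C.powerset.erase ∅, ∏ a ∈ S, U s(z v, z a) + 1 := by
      rw [← Finset.sum_erase_add _ _ (Finset.empty_mem_powerset C)]
      simp
    rw [h1]
    have h2 : ∑ S ∈ C.powerset.erase ∅, U s(z w, z v) * R z * (∏ a ∈ S, U s(z v, z a)) *
          (∏ a ∈ N, (1 + U s(z v, z a))) * G z =
        U s(z w, z v) * R z * (∑ S ∈ C.powerset.erase ∅, ∏ a ∈ S, U s(z v, z a)) *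
          (∏ a ∈ N, (1 + U s(z v, z a))) * G z := by
      rw [Finset.mul_sum, Finset.sum_mul, Finset.sum_mul]
    rw [h2]
    have h3 : ∀ a ∈ N, gb U (E \ st v (C ∪ N.filter (fun a' => o a ≤ o a'))) z =
        (∏ a' ∈ N.filter (fun a' => o a' < o a), (1 + U s(z v, z a'))) * G z := by
      intro a ha
      have e1 : E \ st v (C ∪ N) =
          (E \ st v (C ∪ N.filter (fun a' => o a ≤ o a'))) \
            st v (N.filter (fun a' => o a' < o a)) := by
        rw [_root_.sdiff_sdiff_left, Finset.sup_eq_union, ← st_union,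
          Finset.union_assoc, ← Finset.filter_or]
        congr 3
        ext x
        simp only [Finset.mem_filter]
        constructor
        · intro h
          exact ⟨h, le_or_gt (o a) (o x)⟩
        · exact fun h => h.1
      have e2 : ∀ x ∈ N.filter (fun a' => o a' < o a),
          s(v, x) ∈ E \ st v (C ∪ N.filter (fun a' => o a ≤ o a')) := by
        intro x hx
        rw [Finset.mem_filter] at hx
        rw [Finset.mem_sdiff]
        refine ⟨hN x hx.1, ?_⟩
        intro hx'
        obtain ⟨y, hy, hxy⟩ := mem_st.1 hx'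
        have : y = x := st_inj v hxy
        subst this
        rcases Finset.mem_union.1 hy with h | h
        · exact Finset.disjoint_left.1 hCN h hx.1
        · rw [Finset.mem_filter] at h
          omega
      rw [gb_sdiff v e2 z, ← e1, hG]
      ring
    have h4 : ∑ a ∈ N, U s(z w, z v) * R z * U s(z v, z a) *
          gb U (E \ st v (C ∪ N.filter (fun a' => o a ≤ o a'))) z =
        U s(z w, z v) * R z * (∑ a ∈ N, U s(z v, z a) *
          ∏ a' ∈ N.filter (fun a' => o a' < o a), (1 + U s(z v, z a'))) * G z := by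
      rw [Finset.mul_sum, Finset.sum_mul]
      refine Finset.sum_congr rfl fun a ha => ?_
      rw [h3 a ha]
      ring
    rw [h4]
    have h5 := prod_one_add_ord o ho N (fun a => U s(z v, z a))
    linear_combination (U s(z w, z v) * R z * G z) * h5
  have hprodN : BM (fun z : V → Ω => ∏ a ∈ N, (1 + U s(z v, z a))) :=
    BM.finprod N fun a _ => (BM.const 1).add (hb1 a)
  have hi1 : ∀ S ∈ C.powerset.erase ∅, BM (fun z : V → Ω => U s(z w, z v) * R z *
      (∏ a ∈ S, U s(z v, z a)) * (∏ a ∈ N, (1 + U s(z v, z a))) * G z) := fun S _ =>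
    (((hb0.mul hR).mul (BM.finprod S fun a _ => hb1 a)).mul hprodN).mul hGb
  have hi2 : ∀ a ∈ N, BM (fun z : V → Ω => U s(z w, z v) * R z * U s(z v, z a) *
      gb U (E \ st v (C ∪ N.filter (fun a' => o a ≤ o a'))) z) := fun a _ =>
    ((hb0.mul hR).mul (hb1 a)).mul (bm_gb hU.good _)
  have hi3 : BM (fun z : V → Ω => U s(z w, z v) * (R z * G z)) := hb0.mul (hR.mul hGb)
  have e0 : ∫ z, U s(z w, z v) * R z * gb U E z ∂(piM V μ) =
      ∫ z, (∑ S ∈ C.powerset.erase ∅, U s(z w, z v) * R z * (∏ a ∈ S, U s(z v, z a)) *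
          (∏ a ∈ N, (1 + U s(z v, z a))) * G z +
      (∑ a ∈ N, U s(z w, z v) * R z * U s(z v, z a) *
          gb U (E \ st v (C ∪ N.filter (fun a' => o a ≤ o a'))) z +
        U s(z w, z v) * (R z * G z))) ∂(piM V μ) :=
    integral_congr_ae (Filter.Eventually.of_forall hsplit)
  rw [e0, integral_add ((BM.finsum _ hi1).integrable _)
    (((BM.finsum _ hi2).add hi3).integrable _),
    integral_add ((BM.finsum _ hi2).integrable _) (hi3.integrable _),
    integral_finset_sum _ (fun S hS => (hi1 S hS).integrable _),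
    integral_finset_sum _ (fun a ha => (hi2 a ha).integrable _)]
  have hz : ∫ z, U s(z w, z v) * (R z * G z) ∂(piM V μ) = 0 := by
    apply int_leaf μ hU hvw (hR.mul hGb)
    intro x y
    show R _ * G _ = R _ * G _
    rw [hRv x y, hGi x y]
  rw [hz, add_zero]

end

end Vale.Agent.P050.Dense.H15
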