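import Vale.Agent.P050.R2.H15.Expl

set_option linter.all false

/-!
# P050 (DenseTargets, phase 3): the iterated exploration

A state is the list `Q` of the vertices visited after the start vertex `v₀` (last one first);
`B` is the set of vertices explored before, `w₀ ∈ B` the predecessor of `v₀`.
-/

open MeasureTheory Finset

namespace Vale.Agent.P050.Dense.H15

open Vale.Agent.P050 Vale.Agent.P050.Dense

/-! ### abstract iteration over lists -/

section abs

variable {V : Type*} [DecidableEq V]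

/-- the lists of length `n` obtained by adding successors -/
def exts (next : List V → Finset V) : ℕ → Finset (List V)
  | 0 => {[]}
  | n + 1 => (exts next n).biUnion (fun Q => (next Q).image (fun a => a :: Q))

theorem mem_exts_zero {next : List V → Finset V} {Q : List V} : Q ∈ exts next 0 ↔ Q = [] := by
  simp [exts]

theorem mem_exts_succ {next : List V → Finset V} {n : ℕ} {Q : List V} :
    Q ∈ exts next (n + 1) ↔ ∃ Q' ∈ exts next n, ∃ a ∈ next Q', Q = a :: Q' := by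
  simp only [exts, mem_biUnion, mem_image]
  constructor
  · rintro ⟨Q', h, a, ha, rfl⟩
    exact ⟨Q', h, a, ha, rfl⟩
  · rintro ⟨Q', h, a, ha, rfl⟩
    exact ⟨Q', h, a, ha, rfl⟩

theorem exts_length {next : List V → Finset V} : ∀ {n : ℕ} {Q : List V}, Q ∈ exts next n →
    Q.length = n
  | 0, Q, h => by rw [mem_exts_zero.1 h]; rfl
  | n + 1, Q, h => by
    obtain ⟨Q', h', a, -, rfl⟩ := mem_exts_succ.1 h
    rw [List.length_cons, exts_length h']

theorem sum_exts_succ {M : Type*} [AddCommMonoid M] (next : List V → Finset V) (n : ℕ)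
    (F : List V → M) :
    ∑ Q ∈ exts next (n + 1), F Q = ∑ Q ∈ exts next n, ∑ a ∈ next Q, F (a :: Q) := by
  rw [exts, Finset.sum_biUnion]
  · refine Finset.sum_congr rfl fun Q _ => ?_
    rw [Finset.sum_image]
    intro a _ b _ h
    exact (List.cons.inj h).1
  · intro Q _ Q' _ hne
    rw [Function.onFun, Finset.disjoint_left]
    intro x hx hx'
    obtain ⟨a, _, rfl⟩ := mem_image.1 hx
    obtain ⟨b, _, h⟩ := mem_image.1 hx'
    exact hne ((List.cons.inj h).2).symm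

/-- iteration of `F Q = T Q + ∑ a ∈ next Q, F (a :: Q)` -/
theorem iter_sum (next : List V → Finset V) (F T : List V → ℝ)
    (hstep : ∀ k, ∀ Q ∈ exts next k, F Q = T Q + ∑ a ∈ next Q, F (a :: Q)) :
    ∀ n : ℕ, F [] = ∑ k ∈ range n, ∑ Q ∈ exts next k, T Q + ∑ Q ∈ exts next n, F Q := by
  intro n
  induction n with
  | zero => simp [exts]
  | succ n ih =>
    rw [ih, Finset.sum_range_succ, sum_exts_succ, add_assoc, ← Finset.sum_add_distrib]
    congr 1
    exact Finset.sum_congr rfl fun Q hQ => hstep n Q hQ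

theorem exts_nodup {next : List V → Finset V} (hn : ∀ Q, ∀ a ∈ next Q, a ∉ Q) :
    ∀ {n : ℕ} {Q : List V}, Q ∈ exts next n → Q.Nodup
  | 0, Q, h => by rw [mem_exts_zero.1 h]; exact List.nodup_nil
  | n + 1, Q, h => by
    obtain ⟨Q', h', a, ha, rfl⟩ := mem_exts_succ.1 h
    exact List.nodup_cons.2 ⟨hn Q' a ha, exts_nodup hn h'⟩

theorem exts_empty [Fintype V] {next : List V → Finset V} (hn : ∀ Q, ∀ a ∈ next Q, a ∉ Q)
    {n : ℕ} (h : Fintype.card V < n) : exts next n = ∅ := by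
  rw [Finset.eq_empty_iff_forall_notMem]
  intro Q hQ
  have h1 := exts_nodup hn hQ
  have h2 := exts_length hQ
  have h3 := List.Nodup.length_le_card h1
  omega

theorem card_exts_le {next : List V → Finset V} {D : ℕ} (hn : ∀ Q, (next Q).card ≤ D) :
    ∀ n : ℕ, (exts next n).card ≤ D ^ n := by
  intro n
  induction n with
  | zero => simp [exts]
  | succ n ih =>
    calc (exts next (n + 1)).card ≤ ∑ Q ∈ exts next n, ((next Q).image (fun a => a :: Q)).card :=
          card_biUnion_le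
      _ ≤ ∑ _Q ∈ exts next n, D := sum_le_sum fun Q _ => card_image_le.trans (hn Q)
      _ = (exts next n).card * D := by rw [sum_const, smul_eq_mul]
      _ ≤ D ^ n * D := Nat.mul_le_mul_right _ ih
      _ = D ^ (n + 1) := (pow_succ D n).symm

end abs

/-! ### the states of the exploration -/

section state

variable {V : Type*} [Fintype V] [DecidableEq V]

/-- the active vertex -/
def act (v₀ : V) : List V → V
  | [] => v₀
  | a :: _ => a

/-- the predecessor of the active vertex -/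
def prv (w₀ v₀ : V) : List V → V
  | [] => w₀
  | _ :: Q => act v₀ Q

/-- the explored vertices, the active one included -/
def xp (B : Finset V) (v₀ : V) : List V → Finset V
  | [] => insert v₀ B
  | a :: Q => insert a (xp B v₀ Q)

/-- the environment at the state `Q`, before the expansion at the active vertex -/
def env (o : V → ℕ) (E₀ : Finset (Sym2 V)) (B : Finset V) (v₀ : V) :
    List V → Finset (Sym2 V)
  | [] => E₀
  | a :: Q => (env o E₀ B v₀ Q).filter
      (fun e => ∀ w, e = s(act v₀ Q, w) → w ∉ xp B v₀ Q ∧ o w < o a)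

/-- the closing vertices of the state `Q` -/
def clo (o : V → ℕ) (E₀ : Finset (Sym2 V)) (B : Finset V) (v₀ : V) (Q : List V) : Finset V :=
  (xp B v₀ Q).filter (fun c => c ≠ act v₀ Q ∧ s(act v₀ Q, c) ∈ env o E₀ B v₀ Q)

/-- the possible new vertices of the state `Q` -/
def nxt (o : V → ℕ) (E₀ : Finset (Sym2 V)) (B : Finset V) (v₀ : V) (Q : List V) : Finset V :=
  univ.filter (fun a => a ∉ xp B v₀ Q ∧ s(act v₀ Q, a) ∈ env o E₀ B v₀ Q)

variable {o : V → ℕ} {E₀ : Finset (Sym2 V)} {B : Finset V} {v₀ w₀ : V}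

theorem act_mem_xp (B : Finset V) (v₀ : V) (Q : List V) : act v₀ Q ∈ xp B v₀ Q := by
  cases Q with
  | nil => exact mem_insert_self _ _
  | cons a Q => exact mem_insert_self _ _

theorem xp_mono (B : Finset V) (v₀ : V) (Q : List V) (a : V) :
    xp B v₀ Q ⊆ xp B v₀ (a :: Q) := subset_insert _ _

theorem subset_xp (B : Finset V) (v₀ : V) (Q : List V) : insert v₀ B ⊆ xp B v₀ Q := by
  induction Q with
  | nil => exact Subset.refl _
  | cons a Q ih => exact ih.trans (xp_mono B v₀ Q a)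

theorem mem_xp_of_mem {B : Finset V} {v₀ : V} {Q : List V} {a : V} (h : a ∈ Q) :
    a ∈ xp B v₀ Q := by
  induction Q with
  | nil => simp at h
  | cons b Q ih =>
    rcases List.mem_cons.1 h with rfl | h
    · exact mem_insert_self _ _
    · exact mem_insert_of_mem (ih h)

theorem mem_xp {Q : List V} {a : V} : a ∈ xp B v₀ Q ↔ a ∈ Q ∨ a = v₀ ∨ a ∈ B := by
  induction Q with
  | nil => simp [xp]
  | cons b Q ih =>
    simp only [xp, mem_insert, List.mem_cons, ih]
    tauto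

theorem env_subset (o : V → ℕ) (E₀ : Finset (Sym2 V)) (B : Finset V) (v₀ : V) :
    ∀ Q : List V, env o E₀ B v₀ Q ⊆ E₀
  | [] => Subset.refl _
  | a :: Q => (filter_subset _ _).trans (env_subset o E₀ B v₀ Q)

theorem nxt_notMem {Q : List V} {a : V} (h : a ∈ nxt o E₀ B v₀ Q) : a ∉ xp B v₀ Q :=
  (mem_filter.1 h).2.1

theorem nxt_notMem' (Q : List V) : ∀ a ∈ nxt o E₀ B v₀ Q, a ∉ Q := fun _ h hQ =>
  nxt_notMem h (mem_xp_of_mem hQ)

theorem nxt_edge {Q : List V} {a : V} (h : a ∈ nxt o E₀ B v₀ Q) :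
    s(act v₀ Q, a) ∈ env o E₀ B v₀ Q := (mem_filter.1 h).2.2

theorem clo_edge {Q : List V} {a : V} (h : a ∈ clo o E₀ B v₀ Q) :
    s(act v₀ Q, a) ∈ env o E₀ B v₀ Q := (mem_filter.1 h).2.2

theorem clo_mem {Q : List V} {a : V} (h : a ∈ clo o E₀ B v₀ Q) : a ∈ xp B v₀ Q :=
  (mem_filter.1 h).1

theorem clo_ne {Q : List V} {a : V} (h : a ∈ clo o E₀ B v₀ Q) : a ≠ act v₀ Q :=
  (mem_filter.1 h).2.1

theorem disj_clo_nxt (Q : List V) : Disjoint (clo o E₀ B v₀ Q) (nxt o E₀ B v₀ Q) := by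
  rw [Finset.disjoint_left]
  intro a h1 h2
  exact nxt_notMem h2 (clo_mem h1)

/-- the environment after the step to `a`, in the form of `step` -/
theorem env_cons_eq (hloop : ∀ e ∈ E₀, ¬ e.IsDiag) (Q : List V) {a : V}
    (ha : a ∈ nxt o E₀ B v₀ Q) :
    env o E₀ B v₀ (a :: Q) = env o E₀ B v₀ Q \
      st (act v₀ Q) (clo o E₀ B v₀ Q ∪ (nxt o E₀ B v₀ Q).filter (fun a' => o a ≤ o a')) := by
  ext e
  simp only [env, mem_filter, mem_sdiff]
  constructor
  · rintro ⟨he, h⟩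
    refine ⟨he, ?_⟩
    intro hst
    obtain ⟨c, hc, rfl⟩ := mem_st.1 hst
    obtain ⟨h1, h2⟩ := h c rfl
    rcases mem_union.1 hc with hc | hc
    · exact h1 (clo_mem hc)
    · have := (mem_filter.1 hc).2
      omega
  · rintro ⟨he, h⟩
    refine ⟨he, ?_⟩
    rintro w rfl
    by_cases hw : w ∈ xp B v₀ Q
    · exfalso
      apply h
      refine mem_st.2 ⟨w, mem_union_left _ ?_, rfl⟩
      refine mem_filter.2 ⟨hw, ?_, he⟩
      intro hww
      have := hloop _ (env_subset o E₀ B v₀ Q he)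
      exact this (by rw [hww]; exact Sym2.mk_isDiag_iff.2 rfl)
    · refine ⟨hw, ?_⟩
      by_contra hcon
      apply h
      refine mem_st.2 ⟨w, mem_union_right _ ?_, rfl⟩
      refine mem_filter.2 ⟨mem_filter.2 ⟨mem_univ _, hw, he⟩, ?_⟩
      omega

theorem env_all (hloop : ∀ e ∈ E₀, ¬ e.IsDiag) (Q : List V) :
    ∀ e ∈ env o E₀ B v₀ Q, act v₀ Q ∈ e →
      e ∈ st (act v₀ Q) (clo o E₀ B v₀ Q ∪ nxt o E₀ B v₀ Q) := by
  intro e he hv
  obtain ⟨w, rfl⟩ := Sym2.mem_iff_exists.1 hv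
  refine mem_st.2 ⟨w, ?_, rfl⟩
  by_cases hw : w ∈ xp B v₀ Q
  · refine mem_union_left _ (mem_filter.2 ⟨hw, ?_, he⟩)
    intro hww
    have := hloop _ (env_subset o E₀ B v₀ Q he)
    exact this (by rw [hww]; exact Sym2.mk_isDiag_iff.2 rfl)
  · exact mem_union_right _ (mem_filter.2 ⟨mem_univ _, hw, he⟩)

/-- the edges inside the explored set without its active vertex are gone -/
theorem env_explored {Q : List V} (hQ : ∀ n, Q ∈ exts (nxt o E₀ B v₀) n → True)
    {n : ℕ} (h : Q ∈ exts (nxt o E₀ B v₀) n) (hB : ∀ e ∈ E₀, ∀ u ∈ B, ∀ w ∈ B, e ≠ s(u, w)) :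
    ∀ e ∈ env o E₀ B v₀ Q, ∀ u ∈ xp B v₀ Q, ∀ w ∈ xp B v₀ Q, e = s(u, w) →
      u = act v₀ Q ∨ w = act v₀ Q := by
  induction Q generalizing n with
  | nil =>
    intro e he u hu w hw heq
    by_contra hcon
    push Not at hcon
    have hu' : u ∈ B := by
      rcases mem_insert.1 hu with h | h
      · exact absurd h hcon.1
      · exact h
    have hw' : w ∈ B := by
      rcases mem_insert.1 hw with h | h
      · exact absurd h hcon.2
      · exact h
    exact hB e he u hu' w hw' heq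
  | cons a Q ih =>
    obtain ⟨m, rfl⟩ : ∃ m, n = m + 1 := by
      have := exts_length h
      exact ⟨Q.length, by rw [← this]; rfl⟩
    obtain ⟨Q', hQ', a', ha', heq'⟩ := mem_exts_succ.1 h
    obtain ⟨rfl, rfl⟩ := List.cons.inj heq'
    intro e he u hu w hw heq
    by_contra hcon
    push Not at hcon
    have hu' : u ∈ xp B v₀ Q := by
      rcases mem_insert.1 hu with h | h
      · exact absurd h hcon.1
      · exact h
    have hw' : w ∈ xp B v₀ Q := by
      rcases mem_insert.1 hw with h | h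
      · exact absurd h hcon.2
      · exact h
    obtain ⟨he1, he2⟩ := mem_filter.1 he
    rcases ih (fun _ _ => trivial) hQ' e he1 u hu' w hw' heq with h | h
    · exact (he2 w (h ▸ heq)).1 hw'
    · exact (he2 u (by rw [heq, h]; exact Sym2.eq_swap)).1 hu'

end state

/-! ### the expansion -/

section main

variable {V : Type*} [Fintype V] [DecidableEq V] {Ω : Type*} [MeasurableSpace Ω]
variable {U : Sym2 Ω → ℝ} {κ η : ℝ}

/-- the factors of the path of the state `Q`, except the one at the active vertex -/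
noncomputable def pw' (U : Sym2 Ω → ℝ) (w₀ v₀ : V) : List V → (V → Ω) → ℝ
  | [], _ => 1
  | _ :: Q, z => U s(z (prv w₀ v₀ Q), z (act v₀ Q)) * pw' U w₀ v₀ Q z

/-- the factors of the path of the state `Q` -/
noncomputable def pw (U : Sym2 Ω → ℝ) (w₀ v₀ : V) (Q : List V) (z : V → Ω) : ℝ :=
  U s(z (prv w₀ v₀ Q), z (act v₀ Q)) * pw' U w₀ v₀ Q z

theorem pw_nil (U : Sym2 Ω → ℝ) (w₀ v₀ : V) (z : V → Ω) :
    pw U w₀ v₀ [] z = U s(z w₀, z v₀) := by
  simp [pw, pw', prv, act]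

theorem pw_cons (U : Sym2 Ω → ℝ) (w₀ v₀ a : V) (Q : List V) (z : V → Ω) :
    pw U w₀ v₀ (a :: Q) z = U s(z (act v₀ Q), z a) * pw U w₀ v₀ Q z := rfl

theorem bm_U2v (hU : Good U 1) (a b : V) : BM (fun z : V → Ω => U s(z a, z b)) := by
  have := hU.bm_edge (V := V) s(a, b)
  simpa using this

theorem bm_pw' (hU : Good U 1) (w₀ v₀ : V) :
    ∀ Q : List V, BM (pw' U w₀ v₀ Q : (V → Ω) → ℝ)
  | [] => BM.const 1
  | _ :: Q => (bm_U2v hU _ _).mul (bm_pw' hU w₀ v₀ Q)

theorem bm_pw (hU : Good U 1) (w₀ v₀ : V) (Q : List V) :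
    BM (pw U w₀ v₀ Q : (V → Ω) → ℝ) := (bm_U2v hU _ _).mul (bm_pw' hU w₀ v₀ Q)

theorem abs_pw_le (hU : Good U 1) (w₀ v₀ : V) (Q : List V) (z : V → Ω) :
    |pw U w₀ v₀ Q z| ≤ 1 := by
  induction Q with
  | nil => rw [pw_nil]; exact hU.bdd _
  | cons a Q ih =>
    rw [pw_cons, abs_mul]
    exact mul_le_one₀ (hU.bdd _) (abs_nonneg _) ih

theorem prv_mem (w₀ v₀ : V) {B : Finset V} (hw : w₀ ∈ B) (Q : List V) :
    prv w₀ v₀ Q ∈ xp B v₀ Q.tail ∨ Q = [] ∧ prv w₀ v₀ Q ∈ B := by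
  cases Q with
  | nil => exact Or.inr ⟨rfl, hw⟩
  | cons a Q => exact Or.inl (act_mem_xp B v₀ Q)

/-- a vertex outside the explored set is on no path factor -/
theorem pw_ind {w₀ v₀ : V} {B : Finset V} (hw : w₀ ∈ B) :
    ∀ (Q : List V) {v : V}, v ∉ xp B v₀ Q → Ind v (pw U w₀ v₀ Q : (V → Ω) → ℝ)
  | [], v, hv => by
    intro x y
    rw [pw_nil, pw_nil]
    have h1 : w₀ ≠ v := fun h => hv (h ▸ mem_insert_of_mem hw)
    have h2 : v₀ ≠ v := fun h => hv (h ▸ mem_insert_self _ _)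
    rw [Function.update_of_ne h1, Function.update_of_ne h2]
  | a :: Q, v, hv => by
    intro x y
    rw [pw_cons, pw_cons]
    have h1 : act v₀ Q ≠ v := fun h => hv (h ▸ mem_insert_of_mem (act_mem_xp B v₀ Q))
    have h2 : a ≠ v := fun h => hv (h ▸ mem_insert_self _ _)
    have h3 : v ∉ xp B v₀ Q := fun h => hv (mem_insert_of_mem h)
    rw [Function.update_of_ne h1, Function.update_of_ne h2, pw_ind hw Q h3 x y]

/-- the active vertex is on no other path factor -/
theorem pw'_ind {w₀ v₀ : V} {B : Finset V} (hw : w₀ ∈ B) (Q : List V)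
    (hnd : ∀ a Q', Q = a :: Q' → a ∉ xp B v₀ Q') :
    Ind (act v₀ Q) (pw' U w₀ v₀ Q : (V → Ω) → ℝ) := by
  cases Q with
  | nil => intro x y; rfl
  | cons a Q =>
    exact pw_ind hw Q (hnd a Q rfl)

variable (μ : Measure Ω) [IsProbabilityMeasure μ] {o : V → ℕ}

/-- the integral of the state `Q` -/
noncomputable def JS (μ : Measure Ω) (U : Sym2 Ω → ℝ) (o : V → ℕ) (E₀ : Finset (Sym2 V))
    (B : Finset V) (w₀ v₀ : V) (R : (V → Ω) → ℝ) (Q : List V) : ℝ :=
  ∫ z, R z * pw U w₀ v₀ Q z * gb U (env o E₀ B v₀ Q) z ∂(piM V μ)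

/-- the integral of the state `Q` closed by the set `S` of closing vertices -/
noncomputable def TS (μ : Measure Ω) (U : Sym2 Ω → ℝ) (o : V → ℕ) (E₀ : Finset (Sym2 V))
    (B : Finset V) (w₀ v₀ : V) (R : (V → Ω) → ℝ) (Q : List V) (S : Finset V) : ℝ :=
  ∫ z, R z * pw U w₀ v₀ Q z * (∏ c ∈ S, U s(z (act v₀ Q), z c)) *
    gb U (env o E₀ B v₀ Q \ st (act v₀ Q) (clo o E₀ B v₀ Q)) z ∂(piM V μ)

/-- one step at the state `Q` -/
theorem JS_step (hU : Ker μ U κ η) (ho : Function.Injective o)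
    {E₀ : Finset (Sym2 V)} (hloop : ∀ e ∈ E₀, ¬ e.IsDiag) {B : Finset V} {w₀ v₀ : V}
    (hw : w₀ ∈ B) (hv₀ : v₀ ∉ B) {R : (V → Ω) → ℝ} (hR : BM R) (hRi : ∀ v, v ∉ B → Ind v R)
    {Q : List V} {n : ℕ} (hQ : Q ∈ exts (nxt o E₀ B v₀) n) :
    JS μ U o E₀ B w₀ v₀ R Q =
      ∑ S ∈ (clo o E₀ B v₀ Q).powerset.erase ∅, TS μ U o E₀ B w₀ v₀ R Q S +
      ∑ a ∈ nxt o E₀ B v₀ Q, JS μ U o E₀ B w₀ v₀ R (a :: Q) := by
  have hnd : ∀ a Q', Q = a :: Q' → a ∉ xp B v₀ Q' := by
    rintro a Q' rfl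
    obtain ⟨m, rfl⟩ : ∃ m, n = m + 1 := ⟨Q'.length, by rw [← exts_length hQ]; rfl⟩
    obtain ⟨Q'', hQ'', a', ha', heq'⟩ := mem_exts_succ.1 hQ
    obtain ⟨rfl, rfl⟩ := List.cons.inj heq'
    exact nxt_notMem ha'
  have hactB : act v₀ Q ∉ B := by
    cases Q with
    | nil => exact hv₀
    | cons a Q =>
      intro h
      exact hnd a Q rfl (subset_xp B v₀ Q (mem_insert_of_mem h))
  have hprv : act v₀ Q ≠ prv w₀ v₀ Q := by
    cases Q with
    | nil => intro h; exact hv₀ (by rw [show v₀ = w₀ from h]; exact hw)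
    | cons a Q =>
      intro h
      exact hnd a Q rfl (by rw [show a = act v₀ Q from h]; exact act_mem_xp B v₀ Q)
  have hRR : BM (fun z : V → Ω => R z * pw' U w₀ v₀ Q z) := hR.mul (bm_pw' hU.good w₀ v₀ Q)
  have hRRi : Ind (act v₀ Q) (fun z : V → Ω => R z * pw' U w₀ v₀ Q z) := by
    intro x y
    show R _ * pw' U w₀ v₀ Q _ = _
    rw [hRi _ hactB x y, pw'_ind hw Q hnd x y]
  have key := step μ hU o ho (E := env o E₀ B v₀ Q) (v := act v₀ Q) (w := prv w₀ v₀ Q) hprv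
    (C := clo o E₀ B v₀ Q) (N := nxt o E₀ B v₀ Q) (fun a ha => clo_edge ha)
    (fun a ha => nxt_edge ha) (disj_clo_nxt Q) (fun h => nxt_notMem h (act_mem_xp B v₀ Q))
    (env_all hloop Q) hRR hRRi
  have e1 : JS μ U o E₀ B w₀ v₀ R Q = ∫ z, U s(z (prv w₀ v₀ Q), z (act v₀ Q)) *
      (R z * pw' U w₀ v₀ Q z) * gb U (env o E₀ B v₀ Q) z ∂(piM V μ) := by
    unfold JS pw
    refine integral_congr_ae (Filter.Eventually.of_forall fun z => ?_)
    ring
  rw [e1, key]
  congr 1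
  · refine Finset.sum_congr rfl fun S _ => ?_
    unfold TS pw
    refine integral_congr_ae (Filter.Eventually.of_forall fun z => ?_)
    have h2 : gb U (env o E₀ B v₀ Q \ st (act v₀ Q) (clo o E₀ B v₀ Q)) z =
        gb U (env o E₀ B v₀ Q \ st (act v₀ Q) (clo o E₀ B v₀ Q ∪ nxt o E₀ B v₀ Q)) z *
          ∏ a ∈ nxt o E₀ B v₀ Q, (1 + U s(z (act v₀ Q), z a)) := by
      have h3 : ∀ a ∈ nxt o E₀ B v₀ Q,
          s(act v₀ Q, a) ∈ env o E₀ B v₀ Q \ st (act v₀ Q) (clo o E₀ B v₀ Q) := by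
        intro a ha
        rw [mem_sdiff]
        refine ⟨nxt_edge ha, ?_⟩
        intro h
        obtain ⟨c, hc, hca⟩ := mem_st.1 h
        have : c = a := st_inj _ hca
        subst this
        exact Finset.disjoint_left.1 (disj_clo_nxt Q) hc ha
      rw [gb_sdiff (act v₀ Q) h3 z, _root_.sdiff_sdiff_left, Finset.sup_eq_union, ← st_union]
    simp only [h2]
    ring
  · refine Finset.sum_congr rfl fun a ha => ?_
    unfold JS
    rw [env_cons_eq hloop Q ha]
    refine integral_congr_ae (Filter.Eventually.of_forall fun z => ?_)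
    simp only [pw_cons]
    unfold pw
    ring

/-- **the exploration**: every state is closed after at most `card V` steps -/
theorem JS_expand (hU : Ker μ U κ η) (ho : Function.Injective o)
    {E₀ : Finset (Sym2 V)} (hloop : ∀ e ∈ E₀, ¬ e.IsDiag) {B : Finset V} {w₀ v₀ : V}
    (hw : w₀ ∈ B) (hv₀ : v₀ ∉ B) {R : (V → Ω) → ℝ} (hR : BM R) (hRi : ∀ v, v ∉ B → Ind v R) :
    JS μ U o E₀ B w₀ v₀ R [] =
      ∑ k ∈ range (Fintype.card V + 1), ∑ Q ∈ exts (nxt o E₀ B v₀) k,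
        ∑ S ∈ (clo o E₀ B v₀ Q).powerset.erase ∅, TS μ U o E₀ B w₀ v₀ R Q S := by
  rw [iter_sum (nxt o E₀ B v₀) (JS μ U o E₀ B w₀ v₀ R)
    (fun Q => ∑ S ∈ (clo o E₀ B v₀ Q).powerset.erase ∅, TS μ U o E₀ B w₀ v₀ R Q S)
    (fun k Q hQ => JS_step μ hU ho hloop hw hv₀ hR hRi hQ) (Fintype.card V + 1),
    exts_empty (n := Fintype.card V + 1) (fun Q => nxt_notMem' Q) (Nat.lt_succ_self _)]
  simp

end main

end Vale.Agent.P050.Dense.H15
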